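import Vale.Agent.P011.Arith.Schilling

open NumberField IsDedekindDomain

/-!
Isotropy of indefinite diagonal quadratic forms in at least five variables over number fields.
-/

namespace Vale.Agent.P011Z.Cl.HMx

open Vale.Agent.P011.Arith Vale.Agent.P011.Arith.Sch

variable {F : Type} [Field F] [NumberField F]

/-- The places where the quaternion algebra may ramify, and one more place. -/
def bad (v0 : HeightOneSpectrum (𝓞 F)) (a b : Fˣ) : Set (HeightOneSpectrum (𝓞 F)) :=
  {v0} ∪ {v | v.valuation F 2 ≠ 1} ∪ {v | v.valuation F (a : F) ≠ 1} ∪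
    {v | v.valuation F (b : F) ≠ 1}

theorem bad_finite (v0 : HeightOneSpectrum (𝓞 F)) (a b : Fˣ) : (bad v0 a b).Finite :=
  (((Set.finite_singleton v0).union
    (finite_valuation_ne_one 2 two_ne_zero)).union (finite_valuation_ne_one _ a.ne_zero)).union
      (finite_valuation_ne_one _ b.ne_zero)

theorem mem_bad (v0 : HeightOneSpectrum (𝓞 F)) (a b : Fˣ) : v0 ∈ bad v0 a b :=
  Or.inl (Or.inl (Or.inl rfl))

omit [NumberField F] in
theorem pure_of_descend (a b e x1 x2 y1 y2 : F) (hb : b ≠ 0)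
    (h1 : b = (x1 ^ 2 - a * y1 ^ 2) + e * (x2 ^ 2 - a * y2 ^ 2)) (h2 : x1 * x2 = a * y1 * y2) :
    ∃ p q r s : F, ¬ (p = 0 ∧ q = 0 ∧ r = 0 ∧ s = 0) ∧
      e * s ^ 2 = a * p ^ 2 + b * q ^ 2 - a * b * r ^ 2 := by
  by_cases hn : x2 ^ 2 - a * y2 ^ 2 = 0
  · by_cases hy2 : y2 = 0
    · subst hy2
      have hx2 : x2 = 0 := by simpa using hn
      subst hx2
      refine ⟨b, a * y1, x1, 0, fun h => hb h.1, ?_⟩
      linear_combination (-(a * b)) * h1
    · refine ⟨0, x2, y2, 0, fun h => hy2 h.2.2.1, ?_⟩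
      linear_combination (-b) * hn
  · refine ⟨x1 * y2 - x2 * y1, x2, y2, x2 ^ 2 - a * y2 ^ 2, fun h => hn h.2.2.2, ?_⟩
    rw [h1]
    linear_combination (-(x1 * x2 - a * y1 * y2)) * h2

/-- A quadratic extension which splits the quaternion algebra locally embeds in it. -/
theorem pure_rep (v0 : HeightOneSpectrum (𝓞 F)) (a b e : Fˣ)
    (heS : ∀ v ∈ bad v0 a b, e ∉ LS (v.valuation F))
    (hxR : ∀ φ : F →+* ℝ, φ a < 0 → φ b < 0 → φ e < 0) :
    ∃ p q r s : F, ¬ (p = 0 ∧ q = 0 ∧ r = 0 ∧ s = 0) ∧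
      (e : F) * s ^ 2 = a * p ^ 2 + b * q ^ 2 - a * b * r ^ 2 := by
  have hensq : ¬ IsSquare (e : F) := fun h => heS v0 (mem_bad v0 a b) (LS_map_sq v0 h)
  obtain ⟨E, _, _, _, hE, θ, hθ⟩ := exists_quad e hensq
  have hθ' : ∀ x : F, algebraMap F E x ≠ θ := by
    rintro r rfl
    apply hensq
    refine ⟨r, (algebraMap F E).injective ?_⟩
    rw [← hθ, map_mul, pow_two]
  set ι : Fˣ →* Eˣ := Units.map (algebraMap F E : F →* E) with hι
  have hιv : ∀ u : Fˣ, ((ι u : Eˣ) : E) = algebraMap F E u := fun _ => rfl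
  have key : ι b ∈ NF (ι a) := by
    refine hasse_norm (ι a) (ι b) ?_
    rintro (w | ψ)
    · change ι b ∈ NF (ι a) ⊔ LS (w.valuation E)
      obtain ⟨v, hv⟩ := Sch.exists_below (F := F) w
      by_cases hvS : v ∈ bad v0 a b
      · rcases local_split v a b e (heS v hvS) with h1 | ⟨y, n, l, hn, hl, h1⟩
        · exact sup_map hv h1
        · have h2 : ι (b * n * l) ∈ NF (ι a) := by
            refine ⟨θ, algebraMap F E y, ?_⟩
            rw [hιv, hθ, hιv]
            have h3 : ((b * n * l : Fˣ) : F) = (e : F) - a * y ^ 2 := by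
              rw [h1]; push_cast; ring
            rw [h3]
            simp
          have h3 : ι b = ι (b * n * l) * (ι n)⁻¹ * (ι l)⁻¹ := by
            rw [map_mul, map_mul, mul_right_comm (ι b * ι n) (ι l) (ι n)⁻¹,
              mul_inv_cancel_right, mul_inv_cancel_right]
          rw [h3]
          exact mul_mem (mul_mem (Subgroup.mem_sup_left h2)
            (inv_mem (Subgroup.mem_sup_left (NF_map hn))))
            (inv_mem (Subgroup.mem_sup_right (LS_map hv hl)))
      · simp only [bad, Set.mem_union, Set.mem_ofPred_eq, not_or, not_not] at hvS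
        refine unit_norm w ?_ _ _ ?_ ?_
        · have := valuation_one_map hv hvS.1.1.2
          rwa [map_ofNat] at this
        · exact valuation_one_map hv hvS.1.2
        · exact valuation_one_map hv hvS.2
    · change ι b ∈ NF (ι a) ⊔ LSR ψ
      set φ : F →+* ℝ := ψ.comp (algebraMap F E) with hφ
      have hval : ∀ u : Fˣ, ψ (ι u) = φ u := fun _ => rfl
      have heφ : 0 ≤ φ e := by
        have : φ e = ψ θ ^ 2 := by
          rw [← map_pow, hθ]
          rfl
        rw [this]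
        positivity
      by_cases hb : 0 < φ b
      · exact Subgroup.mem_sup_right (by rw [mem_LSR, hval]; exact hb)
      · have hb' : φ b < 0 := lt_of_le_of_ne (not_lt.mp hb) ((map_ne_zero φ).mpr b.ne_zero)
        have ha' : 0 < φ a := by
          by_contra ha
          have ha' : φ a < 0 := lt_of_le_of_ne (not_lt.mp ha) ((map_ne_zero φ).mpr a.ne_zero)
          have h1 := hxR φ ha' hb'
          linarith
        have h1 : ι b / (-ι a) ∈ LSR ψ := by
          rw [mem_LSR, Units.val_div_eq_div_val, map_div₀, Units.val_neg, map_neg, hval, hval]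
          exact div_pos_of_neg_of_neg hb' (by linarith)
        have h2 : ι b = -ι a * (ι b / (-ι a)) := by
          rw [mul_div_cancel]
        rw [h2]
        exact Subgroup.mul_mem_sup (Sch.neg_mem_NF _) h1
  obtain ⟨X, Y, hXY⟩ := key
  obtain ⟨x1, x2, y1, y2, h1, h2⟩ := descend (a := (a : F)) (b := (b : F)) hθ hE hθ' hXY
  exact pure_of_descend _ _ _ x1 x2 y1 y2 b.ne_zero h1 h2

/-- Continuity of a diagonal form. -/
theorem near_sum {ι : Type} [Fintype ι] (p : Pl F) (u x₀ : ι → F) {M : ℝ} (hM : 0 < M) :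
    ∃ δ : ι → ℝ, (∀ i, 0 < δ i) ∧ ∀ x : ι → F, (∀ i, plAbv p (x i - x₀ i) < δ i) →
      plAbv p (∑ i, u i * x i ^ 2 - ∑ i, u i * x₀ i ^ 2) < M := by
  have hC : 0 < 1 + ∑ i, plAbv p (u i) := by
    have : 0 ≤ ∑ i, plAbv p (u i) := Finset.sum_nonneg fun i _ => (plAbv p).nonneg _
    linarith
  choose δ hδ hδ' using fun i => plAbv_near p (x₀ i) (div_pos hM hC)
  refine ⟨δ, hδ, fun x hx => ?_⟩
  rw [← Finset.sum_sub_distrib]
  calc plAbv p (∑ i, (u i * x i ^ 2 - u i * x₀ i ^ 2))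
      ≤ ∑ i, plAbv p (u i * x i ^ 2 - u i * x₀ i ^ 2) := (plAbv p).sum_le _ _
    _ ≤ ∑ i, plAbv p (u i) * (M / (1 + ∑ i, plAbv p (u i))) := by
        refine Finset.sum_le_sum fun i _ => ?_
        rw [← mul_sub, map_mul]
        exact mul_le_mul_of_nonneg_left (hδ' i _ (hx i)).le ((plAbv p).nonneg _)
    _ < M := by
        rw [← Finset.sum_mul, ← mul_div_assoc, div_lt_iff₀ hC]
        nlinarith

/-- A form in two or more variables has a value which is not a local square. -/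
theorem exists_notMem {ι : Type} [Fintype ι] (v : HeightOneSpectrum (𝓞 F)) (u : ι → Fˣ) {i j : ι}
    (hij : i ≠ j) :
    ∃ (x : ι → F) (e : Fˣ), (e : F) = ∑ k, u k * x k ^ 2 ∧ e ∉ LS (v.valuation F) := by
  classical
  by_cases hi : u i ∈ LS (v.valuation F)
  · obtain ⟨x, e, he, hn⟩ := exists_sub_notMem v (-(u j / u i))
    refine ⟨fun k => if k = i then x else if k = j then 1 else 0, u i * e, ?_, fun h => hn ?_⟩
    · beta_reduce
      rw [Finset.sum_eq_add i j hij]
      · rw [if_pos rfl, if_neg hij.symm, if_pos rfl, Units.val_mul, he, Units.val_neg,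
          Units.val_div_eq_div_val]
        have := (u i).ne_zero
        field_simp
        ring
      · intro k _ hk
        rw [if_neg hk.1, if_neg hk.2]
        ring
      · intro h
        exact absurd (Finset.mem_univ _) h
      · intro h
        exact absurd (Finset.mem_univ _) h
    · have := mul_mem (inv_mem hi) h
      rwa [inv_mul_cancel_left] at this
  · refine ⟨fun k => if k = i then 1 else 0, u i, ?_, hi⟩
    beta_reduce
    rw [Finset.sum_eq_single i]
    · rw [if_pos rfl]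
      ring
    · intro k _ hk
      rw [if_neg hk]
      ring
    · intro h
      exact absurd (Finset.mem_univ _) h

/-- The auxiliary value. -/
theorem exists_value {ι : Type} [Fintype ι] (S : Set (HeightOneSpectrum (𝓞 F))) (hS : S.Finite)
    {v0 : HeightOneSpectrum (𝓞 F)} (h0 : v0 ∈ S) (u : ι → Fˣ) {i j : ι} (hij : i ≠ j)
    (R : Set (F →+* ℝ)) (hR : ∀ φ ∈ R, ∃ k, φ (u k) < 0) :
    ∃ (x : ι → F) (e : Fˣ), (e : F) = ∑ k, u k * x k ^ 2 ∧ (∀ φ ∈ R, φ e < 0) ∧
      ∀ v ∈ S, e ∉ LS (v.valuation F) := by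
  classical
  choose x₀ e₀ he₀ hn₀ using fun v : HeightOneSpectrum (𝓞 F) => exists_notMem v u hij
  choose δ₀ hδ₀ hδ₁ using fun v : HeightOneSpectrum (𝓞 F) =>
    near_sum (Sum.inl v) (fun k => (u k : F)) (x₀ v)
    (M := plAbv (Sum.inl v) (4 * (e₀ v : F)))
    ((plAbv (Sum.inl v)).pos (mul_ne_zero (by norm_num) (e₀ v).ne_zero))
  have hk : ∀ φ : F →+* ℝ, ∃ k, φ ∈ R → φ (u k) < 0 := by
    intro φ
    by_cases hφ : φ ∈ R
    · obtain ⟨k, hk⟩ := hR φ hφ
      exact ⟨k, fun _ => hk⟩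
    · exact ⟨i, fun h => absurd h hφ⟩
  choose κ hκ using hk
  choose δ₂ hδ₂ hδ₃ using fun φ : F →+* ℝ =>
    near_sum (Sum.inr φ) (fun k => (u k : F)) (fun k => if k = κ φ then 1 else 0)
    (M := |φ (u (κ φ))|) (abs_pos.mpr ((map_ne_zero φ).mpr (u (κ φ)).ne_zero))
  let T : Set (Pl F) := (Sum.inl '' S) ∪ Set.range Sum.inr
  have hT : T.Finite := (hS.image _).union (Set.finite_range _)
  let z : Pl F → ι → F := Sum.elim x₀ (fun φ k => if k = κ φ then 1 else 0)
  let δ : Pl F → ι → ℝ := Sum.elim δ₀ δ₂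
  have hδ : ∀ k p, 0 < δ p k := by
    rintro k (v | φ)
    · exact hδ₀ v k
    · exact hδ₂ φ k
  choose x hx using fun k => approx T hT (fun p => z p k) (fun p => δ p k) (hδ k)
  have hfin : ∀ v ∈ S, (v.valuation F) (∑ k, u k * x k ^ 2 - e₀ v) <
      (v.valuation F) 4 * (v.valuation F) (e₀ v : F) := by
    intro v hv
    have h1 := hδ₁ v x fun k => hx k (Sum.inl v) (Or.inl ⟨v, hv, rfl⟩)
    rw [plAbv_lt, map_mul, ← he₀] at h1
    exact h1
  have hfin' : ∀ v ∈ S, (v.valuation F) (∑ k, u k * x k ^ 2) = (v.valuation F) (e₀ v : F) := by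
    intro v hv
    have h3 : (v.valuation F) (∑ k, u k * x k ^ 2 - e₀ v) < (v.valuation F) (e₀ v : F) :=
      lt_of_lt_of_le (hfin v hv) (by
        calc (v.valuation F) 4 * (v.valuation F) (e₀ v : F) ≤ 1 * (v.valuation F) (e₀ v : F) :=
            mul_le_mul_left (val_four_le _) _
          _ = _ := one_mul _)
    have : (∑ k, u k * x k ^ 2 : F) = e₀ v + (∑ k, u k * x k ^ 2 - e₀ v) := by ring
    rw [this]
    exact Valuation.map_add_eq_of_lt_left _ h3
  have hne : (∑ k, u k * x k ^ 2 : F) ≠ 0 := by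
    intro h
    have h1 := hfin' v0 h0
    rw [h, map_zero] at h1
    exact (Valuation.ne_zero_iff _).mpr (e₀ v0).ne_zero h1.symm
  refine ⟨x, Units.mk0 _ hne, rfl, fun φ hφ => ?_, fun v hv hmem => ?_⟩
  · have h1 := hδ₃ φ x fun k => hx k (Sum.inr φ) (Or.inr ⟨φ, rfl⟩)
    have h2 : ∑ k, (u k : F) * (if k = κ φ then 1 else 0) ^ 2 = (u (κ φ) : F) := by
      rw [Finset.sum_eq_single (κ φ)]
      · rw [if_pos rfl]
        ring
      · intro k _ hk
        rw [if_neg hk]
        ring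
      · intro h
        exact absurd (Finset.mem_univ _) h
    rw [h2, plAbv_inr, abs_of_neg (hκ φ hφ), map_sub] at h1
    have h3 := (abs_lt.mp h1).2
    rw [Units.val_mk0]
    linarith
  · apply hn₀ v
    refine LS_of_near hmem ?_
    rw [Units.val_mk0, hfin' v hv, Valuation.map_sub_swap]
    exact hfin v hv

/-- Three variables and at least two more. -/
theorem core {ι : Type} [Fintype ι] (a0 a1 a2 : Fˣ) (u : ι → Fˣ) {i j : ι} (hij : i ≠ j)
    (h : ∀ φ : F →+* ℝ, 0 < φ a1 * φ a2 → 0 < φ a0 * φ a2 → ∃ k, φ a0 * φ (u k) < 0) :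
    ∃ (p q r : F) (y : ι → F), ¬ (p = 0 ∧ q = 0 ∧ r = 0 ∧ y = 0) ∧
      a0 * p ^ 2 + a1 * q ^ 2 + a2 * r ^ 2 + ∑ k, u k * y k ^ 2 = 0 := by
  obtain ⟨v0⟩ := nonempty_prime (F := F)
  obtain ⟨x, e, he, hR, hS⟩ := exists_value (bad v0 (-(a1 * a2)) (-(a0 * a2)))
    (bad_finite _ _ _) (mem_bad _ _ _) (fun k => a0 * a1 * a2 * u k) hij
    {φ | 0 < φ a1 * φ a2 ∧ 0 < φ a0 * φ a2} (by
      rintro φ ⟨h1, h2⟩
      obtain ⟨k, hk⟩ := h φ h1 h2
      refine ⟨k, ?_⟩
      push_cast
      rw [map_mul, map_mul, map_mul]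
      nlinarith)
  obtain ⟨p, q, r, s, hne, hs⟩ := pure_rep v0 (-(a1 * a2)) (-(a0 * a2)) e hS (by
    intro φ h1 h2
    push_cast at h1 h2
    rw [map_neg, map_mul] at h1 h2
    exact hR φ ⟨by linarith, by linarith⟩)
  have h0 := a0.ne_zero
  have h1 := a1.ne_zero
  have h2 := a2.ne_zero
  have het : (e : F) = a0 * a1 * a2 * ∑ k, u k * x k ^ 2 := by
    rw [he, Finset.mul_sum]
    refine Finset.sum_congr rfl fun k _ => ?_
    push_cast
    ring
  refine ⟨p / a0, q / a1, r, s • x, ?_, ?_⟩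
  · rintro ⟨hp, hq, hr, hx⟩
    refine hne ⟨(div_eq_zero_iff.mp hp).resolve_right h0, (div_eq_zero_iff.mp hq).resolve_right h1,
      hr, ?_⟩
    rcases smul_eq_zero.mp hx with h3 | h3
    · exact h3
    · exfalso
      apply e.ne_zero
      rw [het, h3]
      simp
  · have h3 : ∑ k, (u k : F) * (s • x) k ^ 2 = s ^ 2 * ∑ k, u k * x k ^ 2 := by
      rw [Finset.mul_sum]
      refine Finset.sum_congr rfl fun k _ => ?_
      rw [Pi.smul_apply, smul_eq_mul]
      ring
    rw [h3]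
    rw [het] at hs
    push_cast at hs
    have h4 : (a0 : F) * (p / a0) ^ 2 + a1 * (q / a1) ^ 2 =
        (a1 * p ^ 2 + a0 * q ^ 2) / (a0 * a1) := by
      field_simp
    rw [h4, add_assoc, div_add' _ _ _ (mul_ne_zero h0 h1), div_eq_zero_iff]
    left
    refine mul_left_cancel₀ h2 ?_
    linear_combination hs

theorem meyer {n : ℕ} (hn : 5 ≤ n) (a : Fin n → F)
    (h : ∀ φ : F →+* ℝ, ¬ (∀ i, 0 < φ (a i)) ∧ ¬ ∀ i, φ (a i) < 0) :
    ∃ x : Fin n → F, x ≠ 0 ∧ ∑ i, a i * x i ^ 2 = 0 := by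
  classical
  by_cases h0 : ∃ i, a i = 0
  · obtain ⟨i, hi⟩ := h0
    refine ⟨Pi.single i 1, fun h => one_ne_zero (α := F) ?_, ?_⟩
    · have := congrFun h i
      rwa [Pi.single_eq_same] at this
    · refine Finset.sum_eq_zero fun k _ => ?_
      by_cases hk : k = i
      · rw [hk, hi, zero_mul]
      · rw [Pi.single_eq_of_ne hk]
        ring
  push Not at h0
  obtain ⟨m, rfl⟩ : ∃ m, n = m + 2 + 1 + 1 + 1 := ⟨n - 5, by omega⟩
  obtain ⟨p, q, r, y, hne, hs⟩ := core (Units.mk0 _ (h0 0)) (Units.mk0 _ (h0 (Fin.succ 0)))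
    (Units.mk0 _ (h0 (Fin.succ (Fin.succ 0))))
    (fun k : Fin (m + 2) => Units.mk0 _ (h0 k.succ.succ.succ)) (i := 0) (j := Fin.succ 0)
    (Fin.succ_ne_zero _).symm (by
      intro φ h1 h2
      simp only [Units.val_mk0] at h1 h2 ⊢
      by_contra hcon
      push Not at hcon
      have hz : ∀ i, φ (a i) ≠ 0 := fun i => (map_ne_zero φ).mpr (h0 i)
      have hall : ∀ i, 0 < φ (a 0) * φ (a i) := by
        intro i
        refine Fin.cases ?_ (fun i => Fin.cases ?_ (fun i => Fin.cases ?_ (fun i => ?_) i) i) i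
        · exact mul_self_pos.mpr (hz 0)
        · have h3 := mul_pos h1 h2
          have h4 := mul_self_pos.mpr (hz (Fin.succ (Fin.succ 0)))
          by_contra h5
          nlinarith
        · exact h2
        · exact lt_of_le_of_ne (hcon i) (mul_ne_zero (hz _) (hz _)).symm
      rcases lt_or_gt_of_ne (hz 0) with h3 | h3
      · exact (h φ).2 fun i => by
          by_contra h5
          nlinarith [hall i]
      · exact (h φ).1 fun i => by
          by_contra h5
          nlinarith [hall i])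
  refine ⟨Fin.cons p (Fin.cons q (Fin.cons r y)), fun hx => hne ⟨?_, ?_, ?_, ?_⟩, ?_⟩
  · exact congrFun hx 0
  · exact congrFun hx (Fin.succ 0)
  · exact congrFun hx (Fin.succ (Fin.succ 0))
  · funext k
    exact congrFun hx k.succ.succ.succ
  · rw [Fin.sum_univ_succ, Fin.sum_univ_succ, Fin.sum_univ_succ]
    simp only [Fin.cons_zero, Fin.cons_succ]
    simp only [Units.val_mk0] at hs
    linear_combination hs

end Vale.Agent.P011Z.Cl.HMx
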